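import Vale.Agent.P275FM.Gr
import Mathlib.Algebra.Ring.GeomSum
import Mathlib.Algebra.Algebra.Bilinear
import Mathlib.Algebra.Algebra.Subalgebra.Basic
import Mathlib.Algebra.BigOperators.Intervals
import Mathlib.Algebra.BigOperators.Fin
import Mathlib.Tactic.NoncommRing

/-!
# P275, weights of Chern classes and of pull-backs: the algebra
-/

set_option linter.unusedSectionVars false

noncomputable section

namespace Vale.Agent.P275XI

open Finset Vale.Agent.P275FM LinearMap

section lin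

variable {V V' : Type*} [AddCommGroup V] [Module ℂ V] [AddCommGroup V'] [Module ℂ V']
  {w : ℕ → Module.End ℂ V} {w' : ℕ → Module.End ℂ V'} {s t : ℤ} {φ ψ : V →ₗ[ℂ] V'}

theorem grd_congr (g : Grd w w' s φ) (e : s = t) (h : ∀ x, ψ x = φ x) : Grd w w' t ψ :=
  e ▸ (LinearMap.ext h : ψ = φ) ▸ g

theorem grd_sum {ι : Type*} (S : Finset ι) {f : ι → V →ₗ[ℂ] V'} (h : ∀ i ∈ S, Grd w w' s (f i)) :
    Grd w w' s (∑ i ∈ S, f i) := sum_induction _ _ (fun _ _ => Grd.add) Grd.zero h

/-- cancellation of a jointly injective family -/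
theorem grd_fam {ι : Type*} {U : Type*} [AddCommGroup U] [Module ℂ U] {u : ℕ → Module.End ℂ U}
    (h' : IsGr w') (h'' : IsGr u) {χ : ι → V' →ₗ[ℂ] U} {t : ι → ℤ} (g : ∀ i, Grd w' u (t i) (χ i))
    (hi : ∀ b, (∀ i, χ i b = 0) → b = 0) (g' : ∀ i, Grd w u (s + t i) (χ i ∘ₗ φ)) :
    Grd w w' s φ := fun q q' x hq => hi _ fun i => by
  by_cases e : q' + t i < 0
  · exact (g i).neg_deg h'' e _
  · rw [← (g i).comm h' h'' (q' := (q' + t i).toNat) (by omega)]
    exact g' i q _ x (by omega)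

end lin

variable {X Y Z P Q E W : Type*} [Ring X] [Algebra ℂ X] [Ring Y] [Algebra ℂ Y] [Ring Z]
  [Algebra ℂ Z] [Ring P] [Algebra ℂ P] [Ring Q] [Algebra ℂ Q] [Ring E] [Algebra ℂ E] [Ring W]
  [Algebra ℂ W]

/-- central elements -/
def Ce (a : X) : Prop := ∀ b, Commute a b

theorem Ce.mul {a b : X} (ha : Ce a) (hb : Ce b) : Ce (a * b) := fun x => (ha x).mul_left (hb x)

theorem Ce.pow {a : X} (ha : Ce a) (n : ℕ) : Ce (a ^ n) := fun x => (ha x).pow_left n

theorem Ce.unit {a b : X} (ha : Ce a) (h : IsUnit (b * a)) : IsUnit a ∧ IsUnit b :=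
  ((ha b).symm.isUnit_mul_iff.1 h).symm

/-- multiplication by `a` has degree `s` -/
def MG (w : ℕ → Module.End ℂ X) (s : ℤ) (a : X) : Prop := Grd w w s (mulRight ℂ a)

namespace MG

variable {w : ℕ → Module.End ℂ X} {s t : ℤ} {a b : X}

theorem one (h : IsGr w) : MG w 0 1 := grd_congr h.grd_id rfl mul_one

theorem mul (h : IsGr w) (ha : MG w s a) (hb : MG w t b) : MG w (s + t) (a * b) :=
  grd_congr (Grd.comp hb ha h) rfl fun x => (mul_assoc x a b).symm

theorem pow (h : IsGr w) (ha : MG w s a) : ∀ n : ℕ, MG w (n * s) (a ^ n)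
  | 0 => grd_congr (one h) (by simp) fun x => by simp
  | n + 1 => grd_congr (mul h (pow h ha n) ha) (by push_cast; ring) fun x => by rw [pow_succ]

theorem neg (ha : MG w s a) : MG w s (-a) := grd_congr (Grd.neg ha) rfl fun x => mul_neg x a

theorem add (ha : MG w s a) (hb : MG w s b) : MG w s (a + b) :=
  grd_congr (Grd.add ha hb) rfl fun x => mul_add x a b

theorem smul (c : ℂ) (ha : MG w s a) : MG w s (c • a) :=
  grd_congr (Grd.smul c ha) rfl fun x => mul_smul_comm c x a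

/-- cancellation of a unit -/
theorem cancel {V : Type*} [AddCommGroup V] [Module ℂ V] {v : ℕ → Module.End ℂ V} (h : IsGr w)
    (ha : MG w 0 a) (hu : IsUnit a) {φ : V →ₗ[ℂ] X} (g : Grd v w s (mulRight ℂ a ∘ₗ φ)) :
    Grd v w s φ :=
  Grd.of_inj h h ha (fun _ _ e => hu.mul_left_inj.1 e) (grd_congr g (add_zero s).symm fun _ => rfl)

end MG

/-- the projection formula -/
def Pj (p : X →ₐ[ℂ] P) (g : P →ₗ[ℂ] X) : Prop := ∀ b a, g (b * p a) = g b * a

theorem Pj.ce {p : X →ₐ[ℂ] P} {g : P →ₗ[ℂ] X} (h : Pj p g) {b : P} (hb : Ce b) (a : X) :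
    g (p a * b) = g b * a := by rw [← (hb _).eq, h]

section tower

variable {p : X →ₐ[ℂ] P} {g : P →ₗ[ℂ] X} {R : ℕ → Subalgebra ℂ P}
  {y : ℕ → Subalgebra.center ℂ P} {r : ℕ → ℕ} {m : ℕ}

/-- a monomial -/
def mon (y : ℕ → Subalgebra.center ℂ P) (a b : ℕ) (J : ℕ → ℕ) : P :=
  (∏ l ∈ Ico a b, y l ^ J l : Subalgebra.center ℂ P)

theorem ce_cen (z : Subalgebra.center ℂ P) : Ce (z : P) := fun b =>
  (Subalgebra.mem_center_iff.1 z.2 b).symm

theorem mon_ce (a b : ℕ) (J : ℕ → ℕ) : Ce (mon y a b J) := ce_cen _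

theorem mon_bot {k : ℕ} (h : k < m) (J : ℕ → ℕ) :
    mon y k m J = (y k : P) ^ J k * mon y (k + 1) m J := by
  rw [mon, prod_eq_prod_Ico_succ_bot h]
  rfl

theorem mon_split {k : ℕ} (h : k ≤ m) (J : ℕ → ℕ) : mon y 0 m J = mon y 0 k J * mon y k m J := by
  rw [mon, ← prod_Ico_consecutive _ (Nat.zero_le k) h]
  rfl

theorem mon_congr {a b : ℕ} {J J' : ℕ → ℕ} (h : ∀ l, a ≤ l → l < b → J l = J' l) :
    mon y a b J = mon y a b J' :=
  congrArg Subtype.val (prod_congr rfl fun l hl => by rw [h l (mem_Ico.1 hl).1 (mem_Ico.1 hl).2])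

theorem mon_self (a : ℕ) (J : ℕ → ℕ) : mon y a a J = 1 := by simp [mon]

theorem mon_upd {k : ℕ} (h : k < m) (J : ℕ → ℕ) (i : ℕ) :
    mon y k m (Function.update J k i) = (y k : P) ^ i * mon y (k + 1) m J := by
  rw [mon_bot h, Function.update_self, mon_congr fun l hl _ => Function.update_of_ne (by omega) _ _]

theorem sum_upd {k : ℕ} (h : k < m) (J : ℕ → ℕ) (i : ℕ) :
    ∑ l ∈ Ico k m, Function.update J k i l = i + ∑ l ∈ Ico (k + 1) m, J l := by
  rw [sum_eq_sum_Ico_succ_bot h, Function.update_self]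
  exact congrArg _ (sum_congr rfl fun l hl =>
    Function.update_of_ne (by have := (mem_Ico.1 hl).1; omega) _ _)

/-- a tower of projective bundles, seen on the rings -/
structure Tw (p : X →ₐ[ℂ] P) (R : ℕ → Subalgebra ℂ P) (y : ℕ → Subalgebra.center ℂ P)
    (r : ℕ → ℕ) (m : ℕ) : Prop where
  bot : ∀ b ∈ R 0, ∃ a, b = p a
  top : ∀ b, b ∈ R m
  mono : ∀ k < m, R k ≤ R (k + 1)
  mem : ∀ k < m, (y k : P) ∈ R (k + 1)
  span : ∀ k < m, ∀ b ∈ R (k + 1), ∃ x : ℕ → P, (∀ i, x i ∈ R k) ∧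
    b = ∑ i ∈ range (r k + 1), x i * (y k : P) ^ i

theorem Tw.mon_mem (T : Tw p R y r m) (J : ℕ → ℕ) : ∀ k ≤ m, mon y 0 k J ∈ R k
  | 0, _ => mon_self (y := y) 0 J ▸ (R 0).one_mem
  | k + 1, h => by
    rw [mon_split (Nat.le_succ k), mon_bot (Nat.lt_succ_self k), mon_self, mul_one]
    exact (R _).mul_mem (T.mono k h (T.mon_mem J k (by omega))) ((R _).pow_mem (T.mem k h) _)

variable (T : Tw p R y r m) (hp : Pj p g)
  (h0 : ∀ J, ∑ l ∈ Ico 0 m, J l < ∑ l ∈ Ico 0 m, r l → g (mon y 0 m J) = 0)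
include T hp h0

theorem Tw.van : ∀ k ≤ m, ∀ a ∈ R k, ∀ J, ∑ l ∈ Ico k m, J l < ∑ l ∈ Ico k m, r l →
    g (a * mon y k m J) = 0
  | 0, _, a, ha, J, hJ => by
    obtain ⟨x, rfl⟩ := T.bot a ha
    rw [hp.ce (mon_ce _ _ _), h0 J hJ, zero_mul]
  | k + 1, h, a, ha, J, hJ => by
    obtain ⟨x, hx, rfl⟩ := T.span k h a ha
    rw [sum_mul, map_sum]
    refine sum_eq_zero fun i hi => ?_
    have := Tw.van k (by omega) _ (hx i) (Function.update J k i) (by
      rw [sum_upd h, sum_eq_sum_Ico_succ_bot h r]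
      have := mem_range.1 hi
      omega)
    rwa [mon_upd h, ← mul_assoc] at this

theorem Tw.ndg' (hu : IsUnit (g (mon y 0 m r))) : ∀ k ≤ m, ∀ a ∈ R k,
    (∀ J, (∀ l, J l ≤ r l) → (∀ l, k ≤ l → J l = r l) → g (a * mon y 0 m J) = 0) → a = 0
  | 0, _, a, ha, h => by
    obtain ⟨x, rfl⟩ := T.bot a ha
    have := h r (fun _ => le_rfl) fun _ _ => rfl
    rw [hp.ce (mon_ce _ _ _), hu.mul_right_eq_zero] at this
    rw [this, map_zero]
  | k + 1, hk, a, ha, h => by
    obtain ⟨x, hx, rfl⟩ := T.span k hk a ha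
    have key : ∀ n i, i + n = r k + 1 → ∀ j, i ≤ j → j < r k + 1 → x j = 0 := fun n => by
      induction n with
      | zero => exact fun i hi j h1 h2 => by omega
      | succ n ih =>
        intro i hi j h1 h2
        rcases h1.lt_or_eq with h1 | rfl
        · exact ih (i + 1) (by omega) j h1 h2
        refine Tw.ndg' hu k (by omega) _ (hx i) fun J hJ hJ' => ?_
        have e : ∀ l, l ≠ k → Function.update J k n l = J l := fun l hl =>
          Function.update_of_ne hl _ _
        have h3 := h (Function.update J k n) (fun l => by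
          by_cases hl : l = k
          · rw [hl, Function.update_self]; omega
          · rw [e l hl]; exact hJ l) fun l hl => (e l (by omega)).trans (hJ' l (by omega))
        have h4 : ∀ j, x j * (y k : P) ^ j * mon y 0 m (Function.update J k n) =
            x j * mon y 0 k J * mon y k m (Function.update J k (j + n)) := fun j => by
          rw [mon_split (le_of_lt hk), mon_upd hk, mon_upd hk,
            mon_congr (a := 0) fun l _ hl => e l hl.ne, pow_add, mul_assoc, mul_assoc,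
            ← mul_assoc (_ ^ j), (mon_ce 0 k J _).eq.symm, mul_assoc, mul_assoc]
        rw [sum_mul, map_sum, sum_eq_single i, h4, show i + n = J k by rw [hJ' k le_rfl]; omega,
          Function.update_eq_self, mul_assoc, ← mon_split (le_of_lt hk)] at h3
        · exact h3
        · intro j hj hji
          rcases lt_or_gt_of_ne hji with h5 | h5
          · rw [h4]
            refine T.van hp h0 k (by omega) _
              ((R k).mul_mem (hx j) (T.mon_mem J k (by omega))) _ ?_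
            rw [sum_upd hk, sum_eq_sum_Ico_succ_bot hk r, sum_congr (g := r) rfl fun l hl =>
              hJ' l (by have := (mem_Ico.1 hl).1; omega)]
            exact Nat.add_lt_add_right (by omega) _
          · rw [ih (i + 1) (by omega) j h5 (mem_range.1 hj), zero_mul, zero_mul, map_zero]
        · exact fun hn => absurd (mem_range.2 h2) hn
    exact sum_eq_zero fun j hj => by
      rw [key (r k + 1) 0 (zero_add _) j (Nat.zero_le j) (mem_range.1 hj), zero_mul]

/-- **nondegeneracy** -/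
theorem Tw.ndg (hu : IsUnit (g (mon y 0 m r))) (a : P)
    (h : ∀ J, (∀ l, J l ≤ r l) → g (a * mon y 0 m J) = 0) : a = 0 :=
  T.ndg' hp h0 hu m le_rfl a (T.top a) fun J hJ _ => h J hJ

/-- a class which comes from a section shows that the top coefficient is a unit -/
theorem Tw.unit (hc : Ce (g (mon y 0 m r))) {b : P} (hb : g b = 1) : IsUnit (g (mon y 0 m r)) := by
  have key : ∀ k ≤ m, ∀ a ∈ R k, ∃ x, g (a * mon y k m r) = g (mon y 0 m r) * x := fun k => by
    induction k with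
    | zero =>
      intro _ a ha
      obtain ⟨x, rfl⟩ := T.bot a ha
      exact ⟨x, hp.ce (mon_ce _ _ _) x⟩
    | succ k ih =>
      intro hk a ha
      obtain ⟨x, hx, rfl⟩ := T.span k hk a ha
      obtain ⟨z, hz⟩ := ih (by omega) _ (hx (r k))
      refine ⟨z, ?_⟩
      rw [sum_range_succ, add_mul, map_add, mul_assoc, ← mon_bot hk, hz, sum_mul, map_sum,
        sum_eq_zero, zero_add]
      intro i hi
      have := T.van hp h0 k (by omega) _ (hx i) (Function.update r k i) (by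
        rw [sum_upd hk, sum_eq_sum_Ico_succ_bot hk r]
        exact Nat.add_lt_add_right (mem_range.1 hi) _)
      rwa [mon_upd hk, ← mul_assoc] at this
  obtain ⟨x, hx⟩ := key m le_rfl b (T.top b)
  rw [mon_self, mul_one, hb] at hx
  exact (hc.unit (b := x) (by rw [← (hc x).eq, ← hx]; exact isUnit_one)).1

/-- **the pull-back to a tower is graded** -/
theorem Tw.grd {w : ℕ → Module.End ℂ X} {u : ℕ → Module.End ℂ P} (hw : IsGr w) (hu : IsGr u)
    (hg : Grd u w 0 g) (hy : ∀ k < m, MG u (-2) (y k : P)) (h1 : IsUnit (g (mon y 0 m r)))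
    (h2 : Ce (g (mon y 0 m r))) (h3 : MG w 0 (g (mon y 0 m r))) :
    Grd w u (2 * (∑ l ∈ Ico 0 m, r l : ℕ)) p.toLinearMap := by
  have hm : ∀ J, ∀ k ≤ m, MG u (-2 * (∑ l ∈ Ico 0 k, J l : ℕ)) (mon y 0 k J) := fun J k => by
    induction k with
    | zero => exact fun _ => grd_congr (MG.one hu) (by simp) fun x => by rw [mon_self]
    | succ k ih =>
      intro hk
      refine grd_congr (MG.mul hu (ih (by omega)) (MG.pow hu (hy k hk) (J k))) ?_ fun x => ?_
      · rw [sum_Ico_succ_top (Nat.zero_le k)]; push_cast; ring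
      · rw [mon_split (Nat.le_succ k), mon_bot (Nat.lt_succ_self k), mon_self, mul_one]
  refine grd_fam (ι := {J : ℕ → ℕ // ∀ l, J l ≤ r l}) hu hw
    (χ := fun J => g ∘ₗ mulRight ℂ (mon y 0 m J)) (fun J => Grd.comp hg (hm J m le_rfl) hu)
    (fun b hb => T.ndg hp h0 h1 b fun J hJ => hb ⟨J, hJ⟩) fun J => ?_
  rcases (sum_le_sum fun l (_ : l ∈ Ico 0 m) => J.2 l).lt_or_eq with e | e
  · refine grd_congr Grd.zero rfl fun x => ?_
    exact (hp.ce (mon_ce _ _ _) x).trans (by rw [h0 _ e, zero_mul]; rfl)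
  · refine grd_congr h3 (by rw [e]; ring) fun x => (hp.ce (mon_ce _ _ _) x).trans ?_
    rw [mon_congr (J' := r) fun l h4 h5 =>
      (sum_eq_sum_iff_of_le fun l _ => J.2 l).1 e l (mem_Ico.2 ⟨h4, h5⟩)]
    exact (h2 x).eq

end tower

end Vale.Agent.P275XI
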