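import Vale.Agent.P275S.Th
import Vale.Agent.P275S.Taut
import Vale.Agent.P275CC.Ev
import Vale.Agent.P275MC.Gy
import Vale.Agent.P281Z.Pb.Api
import Vale.Agent.P281Z.Pb.Ps

/-!
# P275, line bundles with sections: maps to the projective space
-/

open scoped Topology Matrix
open Set P275S P275CC
open Vale.Agent.P281Z (PS)

set_option linter.unusedSectionVars false

noncomputable section

namespace Vale.Agent.P275XI

variable {T T' : Type} [TopologicalSpace T] [TopologicalSpace T'] {r : ℕ}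

/-- cohomology of a space -/
abbrev HH (T : Type) [TopologicalSpace T] : Type := H ℂ (TopCat.of T)

/-- pull-back of classes -/
abbrev pbc (f : C(T', T)) : HH T →ₐ[ℂ] HH T' := P275S.pb (TopCat.ofHom f)

/-- first Chern class -/
abbrev cc (L : LB T) : HH T := c1 (X := TopCat.of T) L

theorem cc_pb (f : C(T', T)) (L : LB T) : cc (L.pb f) = pbc f (cc L) := c1_pb (TopCat.ofHom f) L

theorem pbc_comp {T'' : Type} [TopologicalSpace T''] (g : C(T'', T')) (f : C(T', T)) (a : HH T) :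
    pbc g (pbc f a) = pbc (f.comp g) a := pb_comp _ _ a

/-- the factor between two proportional vectors -/
def sca (y v : Fin (r + 1) → ℂ) : ℂ := (star y ⬝ᵥ v) / (star y ⬝ᵥ y)

theorem sca_eq {y : Fin (r + 1) → ℂ} (h : y ≠ 0) (c : ℂ) : sca y (c • y) = c := by
  rw [sca, dotProduct_smul, smul_eq_mul, mul_div_cancel_right₀ _ (nsq_ne h)]

theorem sca_of {y v : Fin (r + 1) → ℂ} {c : ℂ} (h : y ≠ 0) (e : v = c • y) : sca y v = c := by
  rw [e, sca_eq h]

theorem sca_ct {s : Set T} {y v : T → Fin (r + 1) → ℂ} (hy : ContinuousOn y s)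
    (hv : ContinuousOn v s) (h : ∀ x ∈ s, y x ≠ 0) : ContinuousOn (fun x => sca (y x) (v x)) s := by
  have k : ∀ {u : T → Fin (r + 1) → ℂ}, ContinuousOn u s →
      ContinuousOn (fun x => star (y x) ⬝ᵥ u x) s := fun hu =>
    continuousOn_finsetSum _ fun a _ =>
      (continuousOn_pi.1 hy a).star.mul (continuousOn_pi.1 hu a)
  exact (k hv).div (k hy) fun x hx => nsq_ne (h x hx)

/-- `r + 1` sections over `F` without a common zero -/
structure Sys (L : LB T) (F : Set T) (f : L.ι → T → Fin (r + 1) → ℂ) : Prop where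
  ct : ∀ i, ContinuousOn (f i) (L.U i ∩ F)
  law : ∀ i j x, x ∈ L.U i → x ∈ L.U j → x ∈ F → f i x = L.g i j x • f j x
  nz : ∀ i x, x ∈ L.U i → x ∈ F → f i x ≠ 0

theorem Sys.pb {L : LB T} {F : Set T} {f : L.ι → T → Fin (r + 1) → ℂ} (h : Sys L F f)
    (g : C(T', T)) {F' : Set T'} (k : ∀ x ∈ F', g x ∈ F) :
    Sys (L.pb g) F' fun i x => f i (g x) :=
  ⟨fun i => (h.ct i).comp g.continuous.continuousOn fun x hx => ⟨hx.1, k x hx.2⟩,
    fun i j x h1 h2 h3 => h.law i j _ h1 h2 (k x h3), fun i x h1 h2 => h.nz i _ h1 (k x h2)⟩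

/-- the hyperplane bundle -/
def hyp (S : PS r) : LB S.P.X where
  ι := S.H.ι
  U := S.H.U
  op := S.lb.isOpen
  cov := S.lb.cover
  g := S.H.g
  ct i j x hx := (P277Z.Hol.cont (n := r) fun e he =>
    (S.lb.holo i j e x he hx.1 hx.2).analyticAt).continuousWithinAt
  id i x hx := mul_left_cancel₀ (S.lb.ne_zero i i x hx hx)
    ((S.lb.cocycle i i i x hx hx hx).trans (mul_one _).symm)
  cc := S.lb.cocycle

theorem ct_x (S : PS r) (h : S.H.ι) : ContinuousOn (S.x h) (S.H.U h) :=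
  continuousOn_pi.2 fun a _ hx => (S.xhol hx a).cont.continuousWithinAt

/-- **the map to the projective space** -/
theorem Sys.kap {L : LB T} {f : L.ι → T → Fin (r + 1) → ℂ} (h : Sys L univ f) (S : PS r) :
    ∃ κ : C(T, S.P.X), (∀ i, ∀ x ∈ L.U i, κ x = S.pt (f i x)) ∧ cc L = pbc κ (cc (hyp S)) := by
  choose a ha using L.cov
  have h1 : ∀ i, ∀ x ∈ L.U i, S.pt (f (a x) x) = S.pt (f i x) := fun i x hx => by
    rw [h.law _ i x (ha x) hx trivial, S.pt_smul (L.ne (ha x) hx) (h.nz i x hx trivial)]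
  have h2 : Continuous fun x => S.pt (f (a x) x) := continuous_iff_continuousAt.2 fun x => by
    have k := (L.op (a x)).mem_nhds (ha x)
    refine ((S.cont _ (h.nz _ x (ha x) trivial)).comp
      ((h.ct (a x)).continuousAt (by rwa [inter_univ]))).congr ?_
    filter_upwards [k] with y hy using (h1 _ y hy).symm
  refine ⟨⟨_, h2⟩, h1, ?_⟩
  rw [← cc_pb]
  have h3 : ∀ (c : L.ι × S.H.ι) x, x ∈ L.U c.1 → S.pt (f (a x) x) ∈ S.H.U c.2 →
      ∃ t : ℂ, t ≠ 0 ∧ S.x c.2 (S.pt (f (a x) x)) = t • f c.1 x := fun c x k1 k2 => by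
    rw [h1 _ x k1] at k2 ⊢
    exact S.x_pt' (h.nz _ x k1 trivial) k2
  refine c1_iso (X := TopCat.of T) (LB.iso_loc _ _
    (fun c : L.ι × S.H.ι => L.U c.1 ∩ (fun x => S.pt (f (a x) x)) ⁻¹' S.H.U c.2) Prod.fst Prod.snd
    (fun c x => sca (f c.1 x) (S.x c.2 (S.pt (f (a x) x))))
    (fun c => (L.op _).inter ((S.lb.isOpen _).preimage h2))
    (fun x => let ⟨b, hb⟩ := S.lb.cover (S.pt (f (a x) x)); ⟨(a x, b), ha x, hb⟩)
    (fun _ => inter_subset_left) (fun _ => inter_subset_right)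
    (fun c => sca_ct ((h.ct _).mono fun x hx => ⟨hx.1, trivial⟩)
      ((ct_x S _).comp h2.continuousOn fun x hx => hx.2) fun x hx => h.nz _ x hx.1 trivial)
    (fun c c' x k k' => ?_) fun c x k => ?_)
  · obtain ⟨t, -, e⟩ := h3 c x k.1 k.2
    obtain ⟨t', -, e'⟩ := h3 c' x k'.1 k'.2
    have e1 := S.x_chg k.2 k'.2
    rw [e, e', h.law _ _ x k.1 k'.1 trivial, smul_smul, smul_smul] at e1
    rw [e, e', sca_eq (h.nz _ x k.1 trivial), sca_eq (h.nz _ x k'.1 trivial)]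
    exact smul_left_injective ℂ (h.nz _ x k'.1 trivial) e1
  · obtain ⟨t, ht, e⟩ := h3 c x k.1 k.2
    rwa [e, sca_eq (h.nz _ x k.1 trivial)]

/-- the power of the first Chern class vanishes where the sections have no common zero -/
theorem Sys.pow {L : LB T} {F : Set T} {f : L.ι → T → Fin (r + 1) → ℂ} (h : Sys L F f) :
    pbc (inc F) (cc L ^ (r + 1)) = 0 := by
  obtain ⟨S⟩ := P281Z.Pb.psex r
  obtain ⟨κ, -, e⟩ := (h.pb (inc F) (F' := univ) fun x _ => x.2).kap S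
  rw [map_pow, ← cc_pb, e, ← map_pow, P275MC.eq_zero_of_big (d := r)
    (pow_mem_Hd (c1_mem _) (r + 1)) (Or.inr (by push_cast; omega)), map_zero]

theorem Sys.vn {L : LB T} {F : Set T} {f : L.ι → T → Fin 1 → ℂ} (h : Sys L F f) :
    pbc (inc F) (cc L) = 0 := by simpa only [zero_add, pow_one] using h.pow

/-- the sections identify `F` with the projective space -/
structure Bij (L : LB T) (F : Set T) (f : L.ι → T → Fin (r + 1) → ℂ) : Prop where
  inj : ∀ i j x y (c : ℂ), x ∈ L.U i → y ∈ L.U j → x ∈ F → y ∈ F → f i x = c • f j y → x = y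
  sur : ∀ v, v ≠ 0 → ∃ i x, ∃ c : ℂ, x ∈ L.U i ∧ x ∈ F ∧ f i x = c • v

theorem Sys.pfib {L : LB T} {F : Set T} {f : L.ι → T → Fin (r + 1) → ℂ} (h : Sys L F f)
    (b : Bij L F f) (hF : IsCompact F) : PFib L.dual F r 1 := by
  obtain ⟨S⟩ := P281Z.Pb.psex r
  obtain ⟨κ, hκ, -⟩ := (h.pb (inc F) (F' := univ) fun x _ => x.2).kap S
  have := isCompact_iff_compactSpace.1 hF
  have h1 : Function.Bijective κ := by
    refine ⟨fun x y e => ?_, fun p => ?_⟩
    · obtain ⟨i, hi⟩ := L.cov x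
      obtain ⟨j, hj⟩ := L.cov y
      obtain ⟨c, e⟩ := (S.pt_eq_iff (h.nz i _ hi x.2) (h.nz j _ hj y.2)).1
        ((hκ i x hi).symm.trans (e.trans (hκ j y hj)))
      exact Subtype.ext (b.inj i j _ _ c hi hj x.2 y.2 e)
    · obtain ⟨v, hv, rfl⟩ := S.surj p
      obtain ⟨i, x, c, h1, h2, h3⟩ := b.sur v hv
      exact ⟨⟨x, h2⟩, (hκ i ⟨x, h2⟩ h1).trans
        ((S.pt_eq_iff (h.nz i x h1 h2) hv).2 ⟨c, h3⟩)⟩
  let E : F ≃ₜ S.P.X := Continuous.homeoOfEquivCompactToT2 (f := Equiv.ofBijective κ h1)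
    κ.continuous
  have e1 : ∀ p, κ (E.symm p) = p := E.apply_symm_apply
  have c1 : ContinuousOn (fun v => (E.symm (S.pt v) : T)) {0}ᶜ := fun v hv =>
    (((continuous_subtype_val.comp E.symm.continuous).continuousAt).comp
      (S.cont v hv)).continuousWithinAt
  have k : ∀ i v, v ≠ 0 → (E.symm (S.pt v) : T) ∈ L.U i →
      ∃ c : ℂ, v = c • f i (E.symm (S.pt v)) := fun i v hv hi =>
    (S.pt_eq_iff hv (h.nz i _ hi (E.symm _).2)).1 ((e1 _).symm.trans (hκ i _ hi))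
  refine ⟨fun v => E.symm (S.pt v), fun i v => sca (f i (E.symm (S.pt v))) v, c1, ?_,
    fun v w hv hw => ?_, fun i => sca_ct ((h.ct i).comp (c1.mono inter_subset_left)
      fun v hv => ⟨hv.2, (E.symm _).2⟩) continuousOn_id fun v hv => h.nz i _ hv.2 (E.symm _).2,
    fun i v hv hi => ?_, fun i v c hv hc hi => ?_, fun i j v hv hi hj => ?_⟩
  · refine subset_antisymm (fun _ ⟨v, _, e⟩ => e ▸ (E.symm _).2) fun x hx => ?_
    obtain ⟨v, hv, e⟩ := S.surj (E ⟨x, hx⟩)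
    exact ⟨v, hv, by simp only [e, Homeomorph.symm_apply_apply]⟩
  · rw [← S.pt_eq_iff hv hw, Subtype.val_inj, E.symm.injective.eq_iff]
  · obtain ⟨c, e⟩ := k i v hv hi
    exact fun h0 => hv (e.trans (by
      rw [(sca_of (h.nz i _ hi (E.symm _).2) e).symm.trans h0, zero_smul]))
  · obtain ⟨t, e⟩ := k i v hv hi
    have n := h.nz i _ hi (E.symm _).2
    change sca _ _ = _ * sca _ _
    rw [S.pt_smul hc hv, sca_of n e, sca_of n ((congrArg (c • ·) e).trans (smul_smul _ _ _)),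
      pow_one]
  · obtain ⟨t, e⟩ := k j v hv hj
    change sca _ _ = L.g j i _ * sca _ _
    rw [sca_of (h.nz j _ hj (E.symm _).2) e, sca_of (h.nz i _ hi (E.symm _).2)
      (e.trans (by rw [h.law j i _ hj hi (E.symm _).2, smul_smul])), mul_comm]

/-- **Leray-Hirsch** -/
theorem span_of [Nc T] [Nc T'] (π : C(T', T)) (hp : IsProperMap π) (L : LB T')
    (h : ∀ y, ∃ f : L.ι → T' → Fin (r + 1) → ℂ, Sys L (π ⁻¹' {y}) f ∧ Bij L (π ⁻¹' {y}) f)
    (b : HH T') : ∃ x : ℕ → HH T, b = ∑ i ∈ Finset.range (r + 1), pbc π (x i) * cc L ^ i := by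
  obtain ⟨a, ha⟩ := (lh_pf lhp one_ne_zero (Z := TopCat.of T') (X := TopCat.of T)
    (TopCat.ofHom π) hp L.dual (r := r) fun y =>
    let ⟨_, h1, h2⟩ := h y
    h1.pfib h2 (hp.isCompact_preimage isCompact_singleton)).2 b
  refine ⟨fun i => if h : i < r + 1 then (-1) ^ i * a ⟨i, h⟩ else 0, ha.symm.trans ?_⟩
  rw [Finset.sum_range]
  refine Finset.sum_congr rfl fun i _ => ?_
  simp only [dif_pos i.2]
  rw [c1_dual (X := TopCat.of T') L, neg_pow, map_mul, map_pow, map_neg, map_one, ← mul_assoc,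
    ((Commute.neg_one_left (pbc π (a i))).pow_left _).eq]

end Vale.Agent.P275XI
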