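import Vale.Agent.P275XI.Lsy
import Vale.Agent.P275LB.Ins

/-!
# P275, the line bundles on the projective bundles over the Betti varieties
-/

open Set Function Topology P275S P275CC Matrix
open Vale.Agent.P281Z (PS)
open Vale.Agent.P275Z Vale.Agent.P275BW Vale.Agent.P275CH Vale.Agent.P275B Vale.Agent.P275LB
open Vale.Agent.P275XB (Ok)
open Vale.Agent.P281Z.Hm (Mx)

set_option linter.unusedSectionVars false

noncomputable section

namespace Vale.Agent.P275XI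

variable {n g k a a' D D' E E' b r : ℕ} {d ε : ℤ} {J : Type} [Fintype J] {μ : Fin n → ℤ}
  {m : J → Fin n → ℤ} {e : J → ℤ} {S : Set (KB n J → ℂ)} {B : Mn b} {c : Cv B}
  {t : c.ι → c.ι → Aut g n}

theorem mv_one {q : Submodule ℂ (Mx (Fin n))} (p : BFr g d q) : Mv 1 p p :=
  ⟨one_mem _, by simp, by simp, fun _ => by simp⟩

theorem tb_refl (z : EB g k d S) : TB m e μ ε z z 1 :=
  ⟨1, 1, mv_one _, one_ne_zero, fun j => by simp [ch_one], by simp [ch_one]⟩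

/-- the stabilisers act trivially -/
theorem ch_stab [Ok g n d] {h} {p : BFr g d (nk n k)} (u : Mv h p p) (hμ : ∑ a, μ a = 0) :
    ch μ h = 1 := by
  obtain ⟨O, o, s⟩ := ex_sem p
  obtain ⟨β, s⟩ := s μ hμ
  exact mul_left_cancel₀ (s.nz p o) ((s.law p p _ ⟨h, u, rfl⟩ o).2.trans (mul_one _).symm)

/-- a nonzero vector -/
def nzv (v : Fin (r + 1) → ℂ) : Fin (r + 1) → ℂ := by classical exact if v = 0 then 1 else v

theorem nzv_eq {v : Fin (r + 1) → ℂ} (h : v ≠ 0) : nzv v = v := if_neg h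

theorem nzv_ne (v : Fin (r + 1) → ℂ) : nzv v ≠ 0 := by
  by_cases h : v = 0
  · rw [nzv, if_pos h]
    exact one_ne_zero
  · rwa [nzv_eq h]

theorem comp_ne (σ : J ≃ Fin (r + 1)) {v : Fin (r + 1) → ℂ} (h : v ≠ 0) : v ∘ σ ≠ 0 :=
  fun e => h (funext fun i => by simpa using congrFun e (σ.symm i))

/-- **the fibres of the projective bundles** -/
theorem fb_PB [Ok g n d] (σ : J ≃ Fin (r + 1)) (hm : ∀ j, ∑ a, m j a = 0)
    (X : BB g k d (bor n) m 1 (T0 n J) a D) (Y : BN g k d (le_refl (bor n)) a' D') {s : ℂ → ℂ}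
    (hs : ∀ t, s t = t ^ ε) :
    Fb (M := X.vr) (M' := Y.vr) (ptB (bor n) m 1) (TB m 1 μ ε) (prB le_rfl) r s := by
  intro y
  obtain ⟨p, rfl⟩ := pt_onto y
  refine ⟨fun v => ⟨(p, nzv v ∘ σ), mem_T0.2 (comp_ne σ (nzv_ne v))⟩,
    IsInducing.subtypeVal.continuousOn_iff.2 (ContinuousOn.congr
      (f := fun v => (p, v ∘ σ)) (by fun_prop) fun v hv => congrArg (fun x => (p, x ∘ σ)) (nzv_eq hv)),
    subset_antisymm ?_ fun x hx => ?_, fun v w hv hw => (ptB_iff le_rfl).trans ⟨?_, ?_⟩,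
    fun v t hv ht => ⟨1, t, mv_one p, ht, fun j => ?_, by simp [hs, ch_one]⟩⟩
  · rintro _ ⟨v, -, rfl⟩
    rfl
  · obtain ⟨v, -, h, rfl⟩ := lift_prB x p hx
    have h1 : v ∘ σ.symm ≠ 0 := fun e => mem_T0.1 h (funext fun i => by
      simpa using congrFun e (σ i))
    exact ⟨_, h1, congrArg _ (Subtype.ext (Prod.ext rfl (funext fun i => by simp [nzv_eq h1])))⟩
  · rintro ⟨h, u1, u2, t, ht, u3, u4, u5⟩
    refine ⟨t⁻¹, funext fun i => ?_⟩
    have := u5 (σ.symm i)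
    simp only [nzv_eq hv, nzv_eq hw, Function.comp_apply, Equiv.apply_symm_apply,
      ch_stab (p := p) ⟨u1, u2, u3, u4⟩ (hm _), Pi.one_apply, zpow_one, one_mul] at this
    rw [Pi.smul_apply, this, smul_eq_mul, inv_mul_cancel_left₀ ht]
  · rintro ⟨t, rfl⟩
    have ht : t ≠ 0 := fun e => hv (by rw [e, zero_smul])
    exact ⟨1, one_mem _, by simp, t⁻¹, inv_ne_zero ht, by simp, fun _ => by simp, fun j => by
      simp [nzv_eq hv, nzv_eq hw, ch_one, ht]⟩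
  · simp [nzv_eq hv, nzv_eq (smul_ne_zero ht hv), ch_one]

section pb

variable [Ok g n d] (σ : J ≃ Fin (r + 1)) (hm : ∀ j, ∑ a, m j a = 0)
  {X : BB g k d (bor n) m 1 (T0 n J) a D} {Y : BN g k d (le_refl (bor n)) a' D'}
  {FX : Fl c X.vr E} {FY : Fl c Y.vr E'}
  (lX : Lf FX (ptB (bor n) m 1) fun i j => apB (t i j)) {ρ}
  (h : Hm0 FX FY (fun _ => prB le_rfl) ρ)
include σ hm lX h

/-- the tautological bundles -/
theorem pfib_neg
    (u : Tr (c := c) (fun i j => apB (k := k) (d := d) (S := T0 n J) (t i j)) (TB m 1 μ (-1)))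
    (l : Loc (prT FX (ptB (bor n) m 1)) (TT (fun i j => apB (t i j)) (TB m 1 μ (-1)))) (y) :
    PFib l.lb (ρ ⁻¹' {y}) r 1 :=
  pfib_totE lX u tb_refl l h (fb_PB σ hm X Y fun t => (zpow_neg_one t).symm) y

/-- their duals -/
theorem pfib_pos
    (u : Tr (c := c) (fun i j => apB (k := k) (d := d) (S := T0 n J) (t i j)) (TB m 1 μ 1))
    (l : Loc (prT FX (ptB (bor n) m 1)) (TT (fun i j => apB (t i j)) (TB m 1 μ 1))) (y) :
    PFib l.lb.dual (ρ ⁻¹' {y}) r 1 :=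
  pfib_totD lX u tb_refl l h (fb_PB σ hm X Y fun t => (zpow_one t).symm) y

end pb

section van

variable {M : Vr D} {F : Fl c M E} {π : EB g k d S → M.X}
  (l : Loc (prT F π) (TT (fun i j => apB (t i j)) (TB m e μ ε))) (κ : Fin (r + 1) → J)
  (h1 : ∀ i, m (κ i) = μ) (h2 : ∀ i, e (κ i) = ε)
include h1 h2

theorem tt_crd (w w' : ET c (EB g k d S)) (s : ℂ)
    (h : TT (fun i j => apB (t i j)) (TB m e μ ε) w w' s) :
    w.2.2.1.2 ∘ κ = s • (w'.2.2.1.2 ∘ κ) := by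
  obtain ⟨-, u, x, -, -, u1, rfl⟩ := h
  exact funext fun i => (u1 _).trans (by rw [h1, h2, ← mul_assoc]; rfl)

omit h1 h2 in
theorem ct_crd : Continuous fun w : ET c (EB g k d S) => w.2.2.1.2 ∘ κ :=
  continuous_sigma fun _ => continuous_pi fun i =>
    (continuous_apply (κ i)).comp (continuous_subtype_val.comp continuous_snd).snd

/-- **coordinates of weight `(μ, ε)` are sections** -/
theorem sys_crd {O : Set F.T.X} (h : ∀ w, prT F π w ∈ O → ∃ i, w.2.2.1.2 (κ i) ≠ 0) :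
    Sys l.lb O (sec l fun w => w.2.2.1.2 ∘ κ) :=
  sys_of l isOpen_univ (ct_crd κ).continuousOn
    (fun w w' s u _ => ⟨trivial, tt_crd κ h1 h2 w w' s u⟩) fun w u => ⟨trivial, ne_iff.2 (h w u)⟩

theorem van_crd {O : Set F.T.X} (h : ∀ w, prT F π w ∈ O → ∃ i, w.2.2.1.2 (κ i) ≠ 0) :
    pbc (inc O) (cc l.lb ^ (r + 1)) = 0 := (sys_crd l κ h1 h2 h).pow

/-- the same off the image of a map of flat bundles -/
theorem van_off {M' : Vr D'} {G : Fl c M' E'} {f j} (hj : Hm0 G F (fun _ => f) j)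
    (h : ∀ z, (∀ i, z.1.2 (κ i) = 0) → π z ∈ range f) :
    pbc (inc (range j)ᶜ) (cc l.lb ^ (r + 1)) = 0 :=
  van_crd l κ h1 h2 fun w u => not_forall.1 fun v => u ((mem_tot hj w).2 (h _ v))

/-- **the hyperplane class** -/
theorem cc_crd (h : ∀ z : EB g k d S, z.1.2 ∘ κ ≠ 0) (P : PS r) {k₀ : M.X → P.P.X}
    (e₀ : ∀ z, k₀ (π z) = P.pt (z.1.2 ∘ κ)) (K : C(F.T.X, P.P.X)) (hK : F.Inv (fun _ => k₀) K) :
    cc l.lb = pbc K (cc (hyp P)) :=
  cc_kap l (ct_crd κ) (tt_crd κ h1 h2) (fun _ => h _) P K fun w =>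
    (hK w.1 _ ((q_prT w).symm ▸ w.2.1.2)).trans ((congrArg k₀ (φ_prT w)).trans (e₀ _))

end van

end Vale.Agent.P275XI
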