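import Vale.Agent.P275XI.Alg

/-!
# P275, weights of Chern classes and of pull-backs: the three abstract theorems
-/

set_option linter.unusedSectionVars false

noncomputable section

namespace Vale.Agent.P275XI

open Finset Vale.Agent.P275FM LinearMap

variable {X Y Z P Q E W : Type*} [Ring X] [Algebra ℂ X] [Ring Y] [Algebra ℂ Y] [Ring Z]
  [Algebra ℂ Z] [Ring P] [Algebra ℂ P] [Ring Q] [Algebra ℂ Q] [Ring E] [Algebra ℂ E] [Ring W]
  [Algebra ℂ W]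

/-- a projective bundle, seen on the rings -/
structure Pb (p : X →ₐ[ℂ] P) (g : P →ₗ[ℂ] X) (ξ : P) (r : ℕ) : Prop where
  pj : Pj p g
  ce : Ce ξ
  span : ∀ b, ∃ x : ℕ → X, b = ∑ i ∈ range (r + 1), p (x i) * ξ ^ i
  low : ∀ i < r, g (ξ ^ i) = 0
  cu : Ce (g (ξ ^ r))
  sec : ∃ b, g b = 1

namespace Pb

variable {p : X →ₐ[ℂ] P} {g : P →ₗ[ℂ] X} {ξ : P} {r : ℕ} (h : Pb p g ξ r)
include h

/-- the generator as a central element -/
def gen (_ : ℕ) : Subalgebra.center ℂ P :=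
  ⟨ξ, Subalgebra.mem_center_iff.2 fun b => (h.ce b).eq.symm⟩

theorem mon_eq (J : ℕ → ℕ) : mon h.gen 0 1 J = ξ ^ J 0 := by
  rw [mon_bot one_pos, zero_add, mon_self, mul_one]
  rfl

theorem tw : Tw p (fun k => if k = 0 then p.range else ⊤) h.gen (fun _ => r) 1 where
  bot _ hb := let ⟨a, e⟩ := hb; ⟨a, e.symm⟩
  top _ := trivial
  mono _ _ _ _ := trivial
  mem _ _ := trivial
  span k hk b _ := by
    obtain rfl : k = 0 := by omega
    obtain ⟨x, e⟩ := h.span b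
    exact ⟨fun i => p (x i), fun i => ⟨x i, rfl⟩, e⟩

theorem low' (J : ℕ → ℕ) (hJ : ∑ l ∈ Ico 0 1, J l < ∑ _l ∈ Ico 0 1, r) :
    g (mon h.gen 0 1 J) = 0 := by
  rw [h.mon_eq]
  exact h.low _ (by simpa using hJ)

theorem un : IsUnit (g (ξ ^ r)) :=
  let ⟨_, hb⟩ := h.sec
  h.mon_eq (fun _ => r) ▸ h.tw.unit h.pj h.low' (h.mon_eq (fun _ => r) ▸ h.cu) hb

theorem ndg (b : P) (e : ∀ i ≤ r, g (b * ξ ^ i) = 0) : b = 0 :=
  h.tw.ndg h.pj h.low' (h.mon_eq (fun _ => r) ▸ h.un) b fun J hJ => h.mon_eq J ▸ e _ (hJ 0)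

theorem grd {w : ℕ → Module.End ℂ X} {u : ℕ → Module.End ℂ P} (hw : IsGr w) (hu : IsGr u)
    (hg : Grd u w 0 g) (hy : MG u (-2) ξ) (h3 : MG w 0 (g (ξ ^ r))) :
    Grd w u (2 * r) p.toLinearMap :=
  grd_congr (h.tw.grd h.pj h.low' hw hu hg (fun _ _ => hy) (h.mon_eq (fun _ => r) ▸ h.un)
    (h.mon_eq (fun _ => r) ▸ h.cu) (h.mon_eq (fun _ => r) ▸ h3)) (by simp) fun _ => rfl

end Pb

/-- The completion `P` of `L ^ (N + 1)` over `Y`, with the divisor `Q = Y × ℙ^N` at infinity. -/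
structure Cm (N : ℕ) (pr : Y →ₐ[ℂ] Q) (prg : Q →ₗ[ℂ] Y) (π : Y →ₐ[ℂ] P) (πg : P →ₗ[ℂ] Y)
    (j : P →ₐ[ℂ] Q) (jg : Q →ₗ[ℂ] P) (c m : Y) (h : Q) (ζ η : P) : Prop where
  pb : Pb pr prg h (N + 1)
  top : h ^ (N + 2) = 0
  pj : Pj j jg
  jπ : ∀ a, j (π a) = pr a
  gj : ∀ b, πg (jg b) = prg b
  cη : Ce η
  cc : Ce c
  cp : Ce (pr c)
  cm : Ce m
  nil : c ^ (N + 1) = 0
  eq : η = ζ + π c
  jη : j η = h
  inf : ζ = jg (pr m)

namespace Cm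

variable {N : ℕ} {pr : Y →ₐ[ℂ] Q} {prg : Q →ₗ[ℂ] Y} {π : Y →ₐ[ℂ] P} {πg : P →ₗ[ℂ] Y}
  {j : P →ₐ[ℂ] Q} {jg : Q →ₗ[ℂ] P} {c m : Y} {h : Q} {ζ η : P}
  (H : Cm N pr prg π πg j jg c m h ζ η)
include H

theorem inj : Function.Injective jg := (injective_iff_map_eq_zero _).2 fun b hb =>
  H.pb.ndg b fun i _ => by rw [← H.jη, ← map_pow, ← H.gj, H.pj, hb, zero_mul, map_zero]

theorem unit : IsUnit m := by
  have h1 : h = j (jg 1) * pr m + pr c := by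
    rw [← H.jπ m, ← map_mul, ← H.pj, one_mul, H.jπ, ← H.inf, ← H.jπ, ← map_add, ← H.eq, H.jη]
  have h2 := H.pb.un
  rw [pow_succ, h1, mul_add, ← h1, map_add, H.pb.pj, H.pb.low N (Nat.lt_succ_self N), zero_mul,
    add_zero, ← mul_assoc, H.pb.pj] at h2
  exact (H.cm.unit h2).1

/-- the powers of `η` come from infinity -/
theorem pow {n : ℕ} (hn : N + 1 ≤ n) (a : Y) :
    η ^ n * π a = jg (∑ k ∈ range n, pr (a * c ^ (n - 1 - k) * m) * h ^ k) := by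
  have h1 := (H.cη (π c)).mul_geom_sum₂ n
  rw [← map_pow π, pow_eq_zero_of_le hn H.nil, map_zero, sub_zero, H.eq, add_sub_cancel_right,
    ← H.eq] at h1
  rw [← h1, H.inf, mul_assoc, ← H.pj, sum_mul, map_sum, mul_sum]
  refine congrArg _ (sum_congr rfl fun k _ => ?_)
  rw [map_mul j, map_mul j, map_pow, H.jη, map_pow, H.jπ, H.jπ, ← map_pow, mul_assoc, ← map_mul,
    (H.pb.ce.pow k _).eq, ← mul_assoc, ← map_mul, (H.cm _).eq, (H.cc.pow _ _).eq]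

variable {w : ℕ → Module.End ℂ Y} {u : ℕ → Module.End ℂ Q} {v : ℕ → Module.End ℂ P}
  (hw : IsGr w) (hu : IsGr u) (hv : IsGr v) (g1 : Grd u w 0 prg) (g2 : Grd u v 0 jg)
  (g3 : MG u (-2) h) (g4 : MG w 0 m) (g5 : MG w 0 (prg (h ^ (N + 1))))
include hw hu hv g1 g2 g3 g4 g5

/-- **XI**: the first Chern class has weight two -/
theorem xi {s : P →ₐ[ℂ] Y} {sg : Y →ₗ[ℂ] P} {m' : Y} (hs : Pj s sg) (sπ : ∀ a, s (π a) = a)
    (e : η ^ (N + 2) = sg m') (hm : Ce m') (g6 : Grd w v 0 sg) (g7 : MG w 0 m') :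
    MG w (-2) c := by
  let φ : Y →ₗ[ℂ] Q := ∑ k ∈ range (N + 2),
    mulRight ℂ (h ^ k) ∘ₗ pr.toLinearMap ∘ₗ mulRight ℂ (c ^ (N + 2 - 1 - k) * m)
  have hφ : ∀ a, φ a = ∑ k ∈ range (N + 2), pr (a * c ^ (N + 2 - 1 - k) * m) * h ^ k := fun a => by
    simp only [φ, LinearMap.sum_apply, comp_apply, mulRight_apply, AlgHom.toLinearMap_apply,
      mul_assoc]
  have h1 : Grd w u 0 φ := Grd.of_inj hu hv g2 H.inj (grd_congr (Grd.comp g6 g7 hw) rfl fun a => by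
    rw [comp_apply, hφ, ← H.pow (Nat.le_succ _), e, ← hs, sπ, (hm a).eq]; rfl)
  have h2 : Grd w w (-2) (mulRight ℂ (m * prg (h ^ (N + 1))) ∘ₗ mulRight ℂ c) :=
    grd_congr (Grd.comp g1 (Grd.comp g3 h1 hu) hu) (by simp) fun a => by
      simp only [comp_apply, mulRight_apply]
      rw [hφ, sum_range_succ, sum_range_succ, add_mul, add_mul, mul_assoc _ (h ^ (N + 1)),
        ← pow_succ, H.top, mul_zero, add_zero, map_add, sum_mul, map_sum, sum_eq_zero, zero_add,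
        mul_assoc _ (h ^ N), ← pow_succ, H.pb.pj.ce (H.pb.ce.pow _), (H.pb.cu _).eq,
        show N + 2 - 1 - N = 1 by omega, pow_one, mul_assoc _ m]
      intro k hk
      rw [mul_assoc, ← pow_succ, H.pb.pj.ce (H.pb.ce.pow _),
        H.pb.low _ (by have := mem_range.1 hk; omega), zero_mul]
  exact MG.cancel hw (grd_congr (MG.mul hw g4 g5) (add_zero 0) fun _ => rfl)
    (H.unit.mul H.pb.un) h2

/-- **the pull-back to `E = ℙ(L ⊕ 1)` is graded** -/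
theorem pbe {ι : P →ₐ[ℂ] E} {ιg : E →ₗ[ℂ] P} {ρ : Y →ₐ[ℂ] E} {ρg : E →ₗ[ℂ] Y} {m' : Y}
    {t : ℕ → Module.End ℂ E} (ht : IsGr t) (hι : Pj ι ιg) (ιπ : ∀ a, ι (π a) = ρ a)
    (gι : ∀ b, πg (ιg b) = ρg b) (hE : Pb ρ ρg (ι ζ) 1) (e : η ^ (N + 1) = ιg (ρ m'))
    (hm : Ce m') (g6 : Grd t v 0 ιg) (g7 : MG w 0 m') (g8 : MG w (-2) c) :
    Grd w t 2 ρ.toLinearMap := by
  have i1 : Function.Injective ιg := (injective_iff_map_eq_zero _).2 fun b hb =>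
    hE.ndg b fun i _ => by rw [← map_pow, ← gι, hι, hb, zero_mul, map_zero]
  have u1 : IsUnit m' := by
    have h1 : πg (η ^ (N + 1) * ζ) = ρg (ι ζ) * m' := by
      rw [e, ← hι, gι, hE.pj.ce hE.ce]
    rw [(H.cη.pow _ _).eq, H.inf, ← H.pj, H.gj, map_pow, H.jη, H.pb.pj.ce (H.pb.ce.pow _),
      ← H.inf] at h1
    exact (hm.unit (h1 ▸ H.pb.un.mul H.unit)).1
  have h1 : Grd w v 2 (ιg ∘ₗ ρ.toLinearMap ∘ₗ mulRight ℂ m') :=
    grd_congr (Grd.comp g2 (grd_sum (s := 2) (range (N + 1)) (f := fun k => mulRight ℂ (h ^ k) ∘ₗ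
      pr.toLinearMap ∘ₗ mulRight ℂ (c ^ (N + 1 - 1 - k) * m)) fun k hk =>
        grd_congr (Grd.comp (MG.pow hu g3 k) (Grd.comp (H.pb.grd hw hu g1 g3 g5)
          (MG.mul hw (MG.pow hw g8 _) g4) hw) hu) (by
            have := mem_range.1 hk
            rw [show N + 1 - 1 - k = N - k by omega, Nat.cast_sub (by omega)]
            push_cast; ring) fun _ => rfl) hu) rfl fun a => by
      simp only [LinearMap.sum_apply, comp_apply, mulRight_apply, AlgHom.toLinearMap_apply]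
      simp only [← mul_assoc]
      rw [← H.pow le_rfl, e, ← hι, ιπ, ← map_mul, (hm a).eq]
  have h2 : Grd w t 2 (ρ.toLinearMap ∘ₗ mulRight ℂ m') :=
    Grd.of_inj ht hv g6 i1 (grd_congr h1 (add_zero _).symm fun _ => rfl)
  exact Grd.of_surj hw hw g7 (fun a => ⟨a * ↑u1.unit⁻¹, by
    rw [mulRight_apply, mul_assoc, u1.val_inv_mul, mul_one]⟩)
    (grd_congr h2 (zero_add _).symm fun _ => rfl)

end Cm

/-- **GY**: the restriction to a divisor is graded -/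
theorem gy {s : W →ₐ[ℂ] Y} {sg : Y →ₗ[ℂ] W} {e : W →ₐ[ℂ] E} {eg : E →ₗ[ℂ] W} {q : Y →ₐ[ℂ] W}
    {i : Y →ₐ[ℂ] Z} {ρ : Z →ₐ[ℂ] E} {ρg : E →ₗ[ℂ] Z} {m : Y} {l : Z} {ν : E}
    (hs : Pj s sg) (he : Pj e eg) (sq : ∀ a, s (q a) = a) (eq : ∀ a, e (q a) = ρ (i a))
    (hE : Pb ρ ρg (e (sg m)) 1) (h1 : sg m = eg (ρ l)) (h2 : ∀ b, e (eg b) = ν * b) (cm : Ce m)
    (cl : Ce l) {w : ℕ → Module.End ℂ Y} {z : ℕ → Module.End ℂ Z} {t : ℕ → Module.End ℂ E}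
    {v : ℕ → Module.End ℂ W} (hw : IsGr w) (hz : IsGr z) (ht : IsGr t) (hv : IsGr v)
    (g1 : Grd w v 0 sg) (g2 : Grd t v 0 eg) (g3 : Grd z t 2 ρ.toLinearMap) (g4 : MG w 0 m)
    (g5 : MG z 0 l) : Grd w z (-2) i.toLinearMap := by
  have u1 := hE.un
  rw [pow_one, h1, h2, hE.pj] at u1
  obtain ⟨u2, u3⟩ := cl.unit u1
  refine MG.cancel hz g5 u2 (Grd.of_inj hz hv (Grd.comp g2 g3 ht)
    ((injective_iff_map_eq_zero _).2 fun a ha => ?_)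
    (grd_congr (Grd.comp g1 g4 hw) (by simp) fun a => ?_))
  · have h3 := congrArg (fun x => ρg (e x)) ha
    simp only [comp_apply, AlgHom.toLinearMap_apply, map_zero] at h3
    rwa [h2, hE.pj, u3.mul_right_eq_zero] at h3
  · simp only [comp_apply, AlgHom.toLinearMap_apply, mulRight_apply]
    rw [← (cl _).eq, map_mul, ← eq, he, ← h1, ← hs, sq, (cm a).eq]

end Vale.Agent.P275XI
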