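import Vale.Agent.P275XI.Kap
import Vale.Agent.P275B.Lt

/-!
# P275, sections of line bundles given by semi-invariants
-/

open Set Function Topology P275S P275CC
open Vale.Agent.P281Z (PS)
open Vale.Agent.P275CH Vale.Agent.P275B

set_option linter.unusedSectionVars false

noncomputable section

namespace Vale.Agent.P275XI

section loc

variable {E Q : Type} [TopologicalSpace E] [TopologicalSpace Q] {π : E → Q} {T : E → E → ℂ → Prop}
  {r : ℕ} (l : Loc π T) {φ : E → Fin (r + 1) → ℂ} {O : Set E}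

/-- the sections given by semi-invariant functions -/
def sec (φ : E → Fin (r + 1) → ℂ) (p : l.lb.ι) (x : Q) : Fin (r + 1) → ℂ :=
  p.1.2 (l.rp x) • φ (l.rp x)

theorem sec_eq (e : ∀ a b c, T a b c → b ∈ O → a ∈ O ∧ φ a = c • φ b) (p : l.lb.ι) {a : E}
    (ha : π a ∈ l.lb.U p) (h : a ∈ O) : sec l φ p (π a) = p.1.2 a • φ a := by
  obtain ⟨c, hc⟩ := l.fib _ a (l.π_rp _)
  rw [sec, (e _ _ c hc h).2, ← (p.2.law _ a c hc (l.mem_U.1 ha)).2, smul_smul]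

theorem sys_of (hO : IsOpen O) (hφ : ContinuousOn φ O)
    (e : ∀ a b c, T a b c → b ∈ O → a ∈ O ∧ φ a = c • φ b) {F : Set Q}
    (hF : ∀ a, π a ∈ F → a ∈ O ∧ φ a ≠ 0) : Sys l.lb F (sec l φ) := by
  refine ⟨fun p => continuousOn_pi.2 fun i => (l.ctOn (u := fun a => p.1.2 a * φ a i)
    (p.2.op.inter hO) ((p.2.ct.mono inter_subset_left).mul
      ((continuousOn_pi.1 hφ i).mono inter_subset_right)) fun a ha =>
        congrFun (sec_eq l e p (l.mem_U.2 ha.1) ha.2) i).mono fun x hx => ?_,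
    fun p q x _ hq _ => ?_, fun p x hp hx => ?_⟩
  · obtain ⟨a, rfl⟩ := l.oq.surjective x
    exact ⟨a, ⟨l.mem_U.1 hx.1, (hF a hx.2).1⟩, rfl⟩
  · change _ • _ = (_ / _) • _ • _
    rw [smul_smul, div_mul_cancel₀ _ (q.2.nz _ (l.mem_U.1 ((l.π_rp x).symm ▸ hq)))]
  · exact smul_ne_zero (p.2.nz _ (l.mem_U.1 ((l.π_rp x).symm ▸ hp)))
      (hF _ ((l.π_rp x).symm ▸ hx)).2

/-- **powers of the Chern class vanish off the common zeros** -/
theorem van_of (hO : IsOpen O) (hφ : ContinuousOn φ O)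
    (e : ∀ a b c, T a b c → b ∈ O → a ∈ O ∧ φ a = c • φ b) {F : Set Q}
    (hF : ∀ a, π a ∈ F → a ∈ O ∧ φ a ≠ 0) : pbc (inc F) (cc l.lb ^ (r + 1)) = 0 :=
  (sys_of l hO hφ e hF).pow

/-- **the Chern class is the hyperplane class** -/
theorem cc_kap (hφ : Continuous φ) (e : ∀ a b c, T a b c → φ a = c • φ b) (h0 : ∀ a, φ a ≠ 0)
    (S : PS r) (κ : C(Q, S.P.X)) (hκ : ∀ a, κ (π a) = S.pt (φ a)) :
    cc l.lb = pbc κ (cc (hyp S)) := by
  have e' : ∀ a b c, T a b c → b ∈ univ → a ∈ univ ∧ φ a = c • φ b :=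
    fun a b c k _ => ⟨trivial, e a b c k⟩
  obtain ⟨κ', h1, h2⟩ :=
    (sys_of l isOpen_univ hφ.continuousOn e' (F := univ) fun a _ => ⟨trivial, h0 a⟩).kap S
  refine h2.trans (congrArg (fun k => pbc k _) (ContinuousMap.ext fun x => ?_))
  obtain ⟨a, rfl⟩ := l.oq.surjective x
  obtain ⟨p, hp⟩ := l.lb.cov (π a)
  rw [h1 p _ hp, hκ, sec_eq l e' p hp trivial, S.pt_smul (p.2.nz a (l.mem_U.1 hp)) (h0 a)]

variable {q : (Fin (r + 1) → ℂ) → E} (hq : ContinuousOn q {0}ᶜ)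
  (h1 : ∀ v w, v ≠ 0 → w ≠ 0 → (π (q v) = π (q w) ↔ ∃ c : ℂ, v = c • w))
include hq h1

theorem pfibD (h2 : ∀ O β v (c : ℂ), Sem T O β → v ≠ 0 → c ≠ 0 → q v ∈ O →
    β (q (c • v)) * c = β (q v)) : PFib l.lb.dual ((fun v => π (q v)) '' {0}ᶜ) r 1 := by
  refine ⟨fun v => π (q v), fun p v => (p.1.2 (q v))⁻¹, l.oq.continuous.comp_continuousOn hq, rfl,
    h1, fun p => (p.2.ct.comp (hq.mono inter_subset_left) fun v k => l.mem_U.1 k.2).inv₀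
      fun v k => p.2.nz _ (l.mem_U.1 k.2), fun p v _ k => inv_ne_zero (p.2.nz _ (l.mem_U.1 k)),
    fun p v c hv hc k => ?_, fun p p' v _ k k' => ?_⟩
  · beta_reduce
    rw [← h2 _ _ v c p.2 hv hc (l.mem_U.1 k), mul_inv, pow_one, mul_comm _ c⁻¹,
      mul_inv_cancel_left₀ hc]
  · change _ = l.lb.g p' p _ * _
    rw [l.lb_g k' k, div_eq_mul_inv, mul_comm (p'.1.2 _), mul_inv_cancel_right₀
      (p'.2.nz _ (l.mem_U.1 k'))]

theorem pfibE (h2 : ∀ O β v (c : ℂ), Sem T O β → v ≠ 0 → c ≠ 0 → q v ∈ O →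
    β (q (c • v)) = c * β (q v)) : PFib l.lb ((fun v => π (q v)) '' {0}ᶜ) r 1 :=
  ⟨fun v => π (q v), fun p v => p.1.2 (q v), l.oq.continuous.comp_continuousOn hq, rfl, h1,
    fun p => p.2.ct.comp (hq.mono inter_subset_left) fun _ k => l.mem_U.1 k.2,
    fun p _ _ k => p.2.nz _ (l.mem_U.1 k),
    fun p v c hv hc k => (pow_one c).symm ▸ h2 _ _ v c p.2 hv hc (l.mem_U.1 k),
    fun p p' v _ k k' => by rw [l.lb_g k k', div_mul_cancel₀ _ (p'.2.nz _ (l.mem_U.1 k'))]⟩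

end loc

/-- **Leray-Hirsch** for the dual of the tautological bundle -/
theorem span_pf {T T' : Type} [TopologicalSpace T] [TopologicalSpace T'] [Nc T] [Nc T'] {r : ℕ}
    (π : C(T', T)) (hp : IsProperMap π) (L : LB T') (h : ∀ y, PFib L.dual (π ⁻¹' {y}) r 1)
    (b : HH T') : ∃ x : ℕ → HH T, b = ∑ i ∈ Finset.range (r + 1), pbc π (x i) * cc L ^ i := by
  obtain ⟨a, ha⟩ := (lh_pf lhp one_ne_zero (Z := TopCat.of T') (X := TopCat.of T)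
    (TopCat.ofHom π) hp L.dual (r := r) h).2 b
  refine ⟨fun i => if h : i < r + 1 then (-1) ^ i * a ⟨i, h⟩ else 0, ha.symm.trans ?_⟩
  rw [Finset.sum_range]
  refine Finset.sum_congr rfl fun i _ => ?_
  simp only [dif_pos i.2]
  rw [c1_dual (X := TopCat.of T') L, neg_pow, map_mul, map_pow, map_neg, map_one, ← mul_assoc,
    ((Commute.neg_one_left (pbc π (a i))).pow_left _).eq]

section tot

variable {b d d' D D' r : ℕ} {B : Mn b} {c : Cv B} {M : Vr d} {M' : Vr d'} {E : Type}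
  [TopologicalSpace E] {F : Fl c M D} {π : E → M.X} {a : c.ι → c.ι → E → E}
  {T : E → E → ℂ → Prop}

/-- the law of a semi-invariant inside one chart -/
theorem sem_TT (h : Lf F π a) (k : Tr a T) (rf : ∀ z, T z z 1) (l : Loc (prT F π) (TT a T)) {O β}
    (s : Sem (TT a T) O β) (i : c.ι) (x : c.V i) {z z' : E} {t : ℂ} (e : T z z' t)
    (m : (⟨i, x, z'⟩ : ET c E) ∈ O) : (⟨i, x, z⟩ : ET c E) ∈ O ∧ β ⟨i, x, z⟩ * t = β ⟨i, x, z'⟩ := by
  obtain ⟨h1, h2⟩ := s.law ⟨i, x, a i i z⟩ ⟨i, x, z'⟩ t ⟨rfl, k.inv i i _ _ _ e⟩ m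
  have h3 : (⟨i, x, z⟩ : ET c E) ∈ O := (l.mem_img s).1
    ⟨_, h1, h.eq_iff.2 ⟨rfl, rfl⟩⟩
  have h4 := (s.law ⟨i, x, a i i z⟩ ⟨i, x, z⟩ 1 ⟨rfl, rf _⟩ h3).2
  exact ⟨h3, by rw [← h4, mul_one, h2]⟩

theorem mem_tot {G : Fl c M' D'} {f : M'.X → M.X} {t} (h : Hm0 G F (fun _ => f) t) (w : ET c E) :
    prT F π w ∈ range t ↔ π w.2.2 ∈ range f := by
  refine ⟨fun ⟨z, e⟩ => ⟨G.φ w.1 z, ?_⟩, fun k => h.mem_range.2
    ⟨w.1, _, w.2.1.2, (q_prT w).symm, (φ_prT w).symm ▸ k⟩⟩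
  have h1 : G.q z = w.2.1 := (h.qt z).symm.trans ((congrArg _ e).trans (q_prT w))
  exact (h.φt w.1 z (h1.symm ▸ w.2.1.2)).symm.trans ((congrArg _ e).trans (φ_prT w))

theorem fib_tot {G : Fl c M' D'} {f : M.X → M'.X} {t} (h : Hm0 F G (fun _ => f) t) (y : G.T.X)
    {i : c.ι} (hi : G.q y ∈ c.V i) {q : (Fin (r + 1) → ℂ) → E}
    (e : (fun v => π (q v)) '' {0}ᶜ = f ⁻¹' {G.φ i y}) :
    (fun v => prT F π ⟨i, ⟨_, hi⟩, q v⟩) '' {0}ᶜ = t ⁻¹' {y} := by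
  refine subset_antisymm ?_ fun z hz => ?_
  · rintro _ ⟨v, hv, rfl⟩
    have h1 := (h.qt (prT F π ⟨i, ⟨_, hi⟩, q v⟩)).trans (q_prT _)
    refine Fl.ext' (i := i) (h1.symm ▸ hi) h1 ((h.φt i _ ((q_prT _).symm ▸ hi)).trans ?_)
    exact (congrArg f (φ_prT (⟨i, ⟨_, hi⟩, q v⟩ : ET c E))).trans (e.le ⟨v, hv, rfl⟩)
  · have h1 : F.q z = G.q y := (h.qt z).symm.trans (congrArg _ hz)
    obtain ⟨v, hv, k⟩ := e.ge (show F.φ i z ∈ f ⁻¹' {G.φ i y} from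
      (h.φt i z (h1.symm ▸ hi)).symm.trans (congrArg _ hz))
    exact ⟨v, hv, Fl.ext' (i := i) ((q_prT _).symm ▸ hi) ((q_prT _).trans h1.symm)
      ((φ_prT (⟨i, ⟨_, hi⟩, q v⟩ : ET c E)).trans k)⟩

theorem eq_tot (i : c.ι) (x : c.V i) (z z' : E) :
    prT F π ⟨i, x, z⟩ = prT F π ⟨i, x, z'⟩ ↔ π z = π z' :=
  ⟨fun e => (φ_prT (⟨i, x, z⟩ : ET c E)).symm.trans
    ((congrArg _ e).trans (φ_prT (⟨i, x, z'⟩ : ET c E))), fun e => by rw [prT, prT, e]⟩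

/-- the fibres of `f` are projective spaces, and scaling acts through `s` -/
def Fb (π : E → M.X) (T : E → E → ℂ → Prop) (f : M.X → M'.X) (r : ℕ) (s : ℂ → ℂ) : Prop :=
  ∀ y, ∃ q : (Fin (r + 1) → ℂ) → E, ContinuousOn q {0}ᶜ ∧ (fun v => π (q v)) '' {0}ᶜ = f ⁻¹' {y} ∧
    (∀ v w, v ≠ 0 → w ≠ 0 → (π (q v) = π (q w) ↔ ∃ c : ℂ, v = c • w)) ∧
    ∀ v (t : ℂ), v ≠ 0 → t ≠ 0 → T (q (t • v)) (q v) (s t)

variable (h : Lf F π a) (k : Tr a T) (rf : ∀ z, T z z 1) (l : Loc (prT F π) (TT a T))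
  {G : Fl c M' D'} {f : M.X → M'.X} {t} (hm : Hm0 F G (fun _ => f) t)
include h k rf hm

/-- **the fibres of the total space**, positive bundle -/
theorem pfib_totD (e : Fb π T f r id) (y : G.T.X) : PFib l.lb.dual (t ⁻¹' {y}) r 1 := by
  obtain ⟨i, hi⟩ := c.cov (G.q y)
  obtain ⟨q, q1, q2, q3, q4⟩ := e (G.φ i y)
  rw [← fib_tot hm y hi q2]
  exact pfibD l (q := fun v => ⟨i, ⟨_, hi⟩, q v⟩)
    (continuous_sigmaMk.comp_continuousOn (continuousOn_const.prodMk q1))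
    (fun v w hv hw => (eq_tot i _ _ _).trans (q3 v w hv hw))
    fun _ _ v t s hv ht m => (sem_TT h k rf l s i _ (q4 v t hv ht) m).2

/-- **the fibres of the total space**, negative bundle -/
theorem pfib_totE (e : Fb π T f r Inv.inv) (y : G.T.X) : PFib l.lb (t ⁻¹' {y}) r 1 := by
  obtain ⟨i, hi⟩ := c.cov (G.q y)
  obtain ⟨q, q1, q2, q3, q4⟩ := e (G.φ i y)
  rw [← fib_tot hm y hi q2]
  exact pfibE l (q := fun v => ⟨i, ⟨_, hi⟩, q v⟩)
    (continuous_sigmaMk.comp_continuousOn (continuousOn_const.prodMk q1))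
    (fun v w hv hw => (eq_tot i _ _ _).trans (q3 v w hv hw))
    fun _ _ v t s hv ht m => by
      rw [← (sem_TT h k rf l s i _ (q4 v t hv ht) m).2, mul_comm t, inv_mul_cancel_right₀ ht]

end tot

end Vale.Agent.P275XI
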